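import Mathlib

/-!
Dilworth's theorem (Galvin's proof), copied from the proof of problem P324.
-/

namespace Vale.Agent.P235.Few

open Finset

variable {V : Type*} [DecidableEq V] {r : V → V → Prop}

/-- antichains inside `W` have at most `k` elements -/
def WidthLe (r : V → V → Prop) (W : Finset V) (k : ℕ) : Prop :=
  ∀ X ⊆ W, (∀ u ∈ X, ∀ v ∈ X, ¬ r u v) → X.card ≤ k

/-- A maximal element of a nonempty finite set. -/
theorem exists_top (htr : ∀ a b c, r a b → r b c → r a c) (hirr : ∀ a, ¬ r a a)
    {S : Finset V} (hS : S.Nonempty) : ∃ a ∈ S, ∀ x ∈ S, ¬ r a x := by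
  classical
  induction hS using Finset.Nonempty.cons_induction with
  | singleton a => exact ⟨a, by simp, by simpa using hirr a⟩
  | cons b S hb hS ih =>
    obtain ⟨a, ha, hmax⟩ := ih
    by_cases h : r a b
    · refine ⟨b, by simp, ?_⟩
      intro x hx
      rcases Finset.mem_cons.mp hx with rfl | hx
      · exact hirr _
      · intro hbx
        exact hmax x hx (htr _ _ _ h hbx)
    · refine ⟨a, by simp [ha], ?_⟩
      intro x hx
      rcases Finset.mem_cons.mp hx with rfl | hx
      · exact h
      · exact hmax x hx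

/-- Dilworth's theorem. -/
theorem dilworth (htr : ∀ a b c, r a b → r b c → r a c) (hirr : ∀ a, ¬ r a a)
    {W : Finset V} {k : ℕ} (hW : WidthLe r W k) :
    ∃ c : V → ℕ, (∀ x ∈ W, c x < k) ∧
      ∀ x ∈ W, ∀ y ∈ W, c x = c y → x = y ∨ r x y ∨ r y x := by
  classical
  induction hn : W.card using Nat.strong_induction_on generalizing W k with
  | _ n ih =>
  rcases W.eq_empty_or_nonempty with rfl | hne
  · exact ⟨fun _ => 0, by simp, by simp⟩
  obtain ⟨a, haW, hamax⟩ := exists_top htr hirr hne
  have hlt : (W.erase a).card < n := by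
    rw [← hn]; exact Finset.card_erase_lt_of_mem haW
  -- antichains
  let IsA : Finset V → Prop := fun X => X ⊆ W.erase a ∧ ∀ u ∈ X, ∀ v ∈ X, ¬ r u v
  -- the width of the rest
  obtain ⟨X0, hX0, hX0max⟩ := Finset.exists_max_image (s := (W.erase a).powerset.filter IsA)
    Finset.card ⟨∅, by simp only [mem_filter, mem_powerset, empty_subset, notMem_empty, IsEmpty.forall_iff, implies_true, and_self, IsA]⟩
  have hX0A : IsA X0 := (Finset.mem_filter.mp hX0).2
  set k' := X0.card with hk'
  have hwid : WidthLe r (W.erase a) k' := by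
    intro X hX hXa
    exact hX0max X (Finset.mem_filter.mpr ⟨Finset.mem_powerset.mpr hX, hX, hXa⟩)
  have hk'k : k' ≤ k := hW X0 (hX0A.1.trans (Finset.erase_subset _ _)) hX0A.2
  obtain ⟨c, hc1, hc2⟩ := ih _ hlt hwid rfl
  -- every `k'`-antichain meets every chain
  have hmeet : ∀ X, IsA X → X.card = k' → ∀ i < k', ∃ x ∈ X, c x = i := by
    intro X hX hXc i hi
    have himg : X.image c = Finset.range k' := by
      apply Finset.eq_of_subset_of_card_le
      · intro j hj
        obtain ⟨x, hx, rfl⟩ := Finset.mem_image.mp hj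
        exact Finset.mem_range.mpr (hc1 x (hX.1 hx))
      · rw [Finset.card_range, Finset.card_image_of_injOn, hXc]
        intro x hx y hy hxy
        rcases hc2 x (hX.1 hx) y (hX.1 hy) hxy with h | h | h
        · exact h
        · exact absurd h (hX.2 x hx y hy)
        · exact absurd h (hX.2 y hy x hx)
    have : i ∈ X.image c := by rw [himg]; exact Finset.mem_range.mpr hi
    obtain ⟨x, hx, hxi⟩ := Finset.mem_image.mp this
    exact ⟨x, hx, hxi⟩
  -- the tops
  have htop : ∀ i : Fin k', ∃ x, (∃ X, IsA X ∧ X.card = k' ∧ x ∈ X) ∧ c x = i ∧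
      ∀ y, (∃ X, IsA X ∧ X.card = k' ∧ y ∈ X) → c y = i → y = x ∨ r y x := by
    intro i
    let S : Finset V := (W.erase a).filter fun x => (∃ X, IsA X ∧ X.card = k' ∧ x ∈ X) ∧ c x = i
    have hSne : S.Nonempty := by
      obtain ⟨x, hx, hxi⟩ := hmeet X0 hX0A rfl i i.2
      exact ⟨x, Finset.mem_filter.mpr ⟨hX0A.1 hx, ⟨X0, hX0A, rfl, hx⟩, hxi⟩⟩
    obtain ⟨x, hx, hxmax⟩ := exists_top htr hirr hSne
    obtain ⟨hxW, hxX, hxi⟩ := Finset.mem_filter.mp hx
    refine ⟨x, hxX, hxi, ?_⟩
    rintro y ⟨X, hX, hXc, hyX⟩ hyi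
    have hyW : y ∈ W.erase a := hX.1 hyX
    have hyS : y ∈ S := Finset.mem_filter.mpr ⟨hyW, ⟨X, hX, hXc, hyX⟩, hyi⟩
    rcases hc2 y hyW x hxW (by rw [hyi, hxi]) with h | h | h
    · exact Or.inl h
    · exact Or.inr h
    · exact absurd h (hxmax y hyS)
  choose t ht1 ht2 ht3 using htop
  have htW : ∀ i, t i ∈ W.erase a := by
    intro i
    obtain ⟨X, hX, -, hx⟩ := ht1 i
    exact hX.1 hx
  have htanti : ∀ i j, ¬ r (t i) (t j) := by
    intro i j hij
    -- the antichain of `t j` meets chain `i` below `t i`
    obtain ⟨X, hX, hXc, hjX⟩ := ht1 j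
    obtain ⟨y, hyX, hyi⟩ := hmeet X hX hXc i i.2
    rcases ht3 i y ⟨X, hX, hXc, hyX⟩ hyi with h | h
    · subst h
      exact hX.2 _ hyX _ hjX hij
    · exact hX.2 _ hyX _ hjX (htr _ _ _ h hij)
  by_cases hcomp : ∃ i, r (t i) a
  · obtain ⟨i, hia⟩ := hcomp
    have hk'pos : 0 < k' := i.pos
    let K : Finset V := insert a (W.filter fun z => z ≠ a ∧ c z = i ∧ (z = t i ∨ r z (t i)))
    have hKW : K ⊆ W := by
      intro z hz
      rcases Finset.mem_insert.mp hz with rfl | hz
      · exact haW
      · exact (Finset.mem_filter.mp hz).1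
    have hcardK : (W \ K).card < n := by
      rw [← hn]
      apply Finset.card_lt_card
      refine ⟨Finset.sdiff_subset, fun h => ?_⟩
      exact (Finset.mem_sdiff.mp (h haW)).2 (Finset.mem_insert_self _ _)
    have hwidK : WidthLe r (W \ K) (k' - 1) := by
      intro X hX hXa
      have hXe : X ⊆ W.erase a := by
        intro x hx
        have := Finset.mem_sdiff.mp (hX hx)
        refine Finset.mem_erase.mpr ⟨?_, this.1⟩
        rintro rfl
        exact this.2 (Finset.mem_insert_self _ _)
      have hle : X.card ≤ k' := hwid X hXe hXa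
      rcases hle.lt_or_eq with h | h
      · omega
      · exfalso
        obtain ⟨x, hx, hxi⟩ := hmeet X ⟨hXe, hXa⟩ h i i.2
        have hx2 := ht3 i x ⟨X, ⟨hXe, hXa⟩, h, hx⟩ hxi
        have hx3 := Finset.mem_sdiff.mp (hX hx)
        apply hx3.2
        refine Finset.mem_insert_of_mem (Finset.mem_filter.mpr ⟨hx3.1, ?_, hxi, hx2⟩)
        exact (Finset.mem_erase.mp (hXe hx)).1
    obtain ⟨d, hd1, hd2⟩ := ih _ hcardK hwidK rfl
    refine ⟨fun x => if x ∈ K then k' - 1 else d x, ?_, ?_⟩
    · intro x hx
      by_cases hxK : x ∈ K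
      · simp only [hxK, if_true]
        omega
      · simp only [hxK, if_false]
        have := hd1 x (Finset.mem_sdiff.mpr ⟨hx, hxK⟩)
        omega
    · intro x hx y hy hxy
      by_cases hxK : x ∈ K <;> by_cases hyK : y ∈ K
      · -- both in the chain `K`
        rcases Finset.mem_insert.mp hxK with rfl | hx' <;>
          rcases Finset.mem_insert.mp hyK with h | hy'
        · exact Or.inl h.symm
        · right; right
          obtain ⟨-, -, -, hh⟩ := Finset.mem_filter.mp hy'
          rcases hh with rfl | hh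
          · exact hia
          · exact htr _ _ _ hh hia
        · subst h
          right; left
          obtain ⟨-, -, -, hh⟩ := Finset.mem_filter.mp hx'
          rcases hh with rfl | hh
          · exact hia
          · exact htr _ _ _ hh hia
        · obtain ⟨hxW, hxa, hxi, -⟩ := Finset.mem_filter.mp hx'
          obtain ⟨hyW, hya, hyi, -⟩ := Finset.mem_filter.mp hy'
          exact hc2 x (Finset.mem_erase.mpr ⟨hxa, hxW⟩) y (Finset.mem_erase.mpr ⟨hya, hyW⟩)
            (by rw [hxi, hyi])
      · exfalso
        simp only [hxK, hyK, if_true, if_false] at hxy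
        have := hd1 y (Finset.mem_sdiff.mpr ⟨hy, hyK⟩)
        omega
      · exfalso
        simp only [hxK, hyK, if_true, if_false] at hxy
        have := hd1 x (Finset.mem_sdiff.mpr ⟨hx, hxK⟩)
        omega
      · simp only [hxK, hyK, if_false] at hxy
        exact hd2 x (Finset.mem_sdiff.mpr ⟨hx, hxK⟩) y (Finset.mem_sdiff.mpr ⟨hy, hyK⟩) hxy
  · push Not at hcomp
    -- the tops and `a` form an antichain
    have hinj : Function.Injective t := by
      intro i j hij
      have := ht2 i
      rw [hij, ht2 j] at this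
      exact (Fin.ext this).symm
    have hbig : k' + 1 ≤ k := by
      have h1 := hW (insert a (Finset.univ.image t)) ?_ ?_
      · rw [Finset.card_insert_of_notMem, Finset.card_image_of_injective _ hinj,
          Finset.card_univ, Fintype.card_fin] at h1
        · exact h1
        · intro hmem
          obtain ⟨i, -, hi⟩ := Finset.mem_image.mp hmem
          exact (Finset.mem_erase.mp (htW i)).1 hi
      · intro x hx
        rcases Finset.mem_insert.mp hx with rfl | hx
        · exact haW
        · obtain ⟨i, -, rfl⟩ := Finset.mem_image.mp hx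
          exact (Finset.mem_erase.mp (htW i)).2
      · intro u hu v hv
        rcases Finset.mem_insert.mp hv with rfl | hv
        · rcases Finset.mem_insert.mp hu with rfl | hu
          · exact hirr _
          · obtain ⟨i, -, rfl⟩ := Finset.mem_image.mp hu
            exact hcomp i
        · obtain ⟨j, -, rfl⟩ := Finset.mem_image.mp hv
          rcases Finset.mem_insert.mp hu with rfl | hu
          · exact hamax _ (Finset.mem_erase.mp (htW j)).2
          · obtain ⟨i, -, rfl⟩ := Finset.mem_image.mp hu
            exact htanti i j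
    refine ⟨fun x => if x = a then k' else c x, ?_, ?_⟩
    · intro x hx
      by_cases hxa : x = a
      · simp only [hxa, if_true]; omega
      · simp only [hxa, if_false]
        have := hc1 x (Finset.mem_erase.mpr ⟨hxa, hx⟩)
        omega
    · intro x hx y hy hxy
      by_cases hxa : x = a <;> by_cases hya : y = a
      · exact Or.inl (hxa.trans hya.symm)
      · exfalso
        simp only [hxa, hya, if_true, if_false] at hxy
        have := hc1 y (Finset.mem_erase.mpr ⟨hya, hy⟩)
        omega
      · exfalso
        simp only [hxa, hya, if_true, if_false] at hxy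
        have := hc1 x (Finset.mem_erase.mpr ⟨hxa, hx⟩)
        omega
      · simp only [hxa, hya, if_false] at hxy
        exact hc2 x (Finset.mem_erase.mpr ⟨hxa, hx⟩) y (Finset.mem_erase.mpr ⟨hya, hy⟩) hxy

end Vale.Agent.P235.Few
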